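import Vale.Agent.P088.R2.H696.B1.Ex
import Vale.Agent.P088.R2.H593.B1.Wp

/-!
# P088, zone B1: `Gd` gives the comparison `Cmp` of the weights
-/

open Finset Set Filter
open scoped ContDiff Topology

noncomputable section

namespace Vale.Agent.P088.R2.H696.B1

open Vale.Agent.P088.LR Vale.Agent.P088.HY Vale.Agent.P088.HY.T3 Vale.Agent.P088.HY.T4
open Vale.Agent.P088.R2.H475
open Vale.Agent.P088.R2.H31.EP
open Vale.Agent.P088.R2.H238.C
open Vale.Agent.P088.R2.H961.F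
open Vale.Agent.P088.R2.H464.EP (Sm TE Dat)
open Vale.Agent.P088.R2.H724.B1
open Vale.Agent.P088.R2.H516.B (mu)
open Vale.Agent.P088.R2.H593.B1 (Cmp)

variable {n : ℕ} {q : Cst} {d : Pk n} {z : VV n} {e A : Cst → ℝ} {p₀ : V n} {c : CD n}
  {Nf : Sm (VV n)}

/-- The comparison of `H593.B1`. -/
theorem CmB.cmp (g : CmB c q d Nf z) (hm : 0 ≤ d.m q z) (hN : 0 ≤ d.N q z) :
    Cmp c.T Nf (d.E q) (d.m q) (d.N q) z :=
  ⟨Real.exp_pos _, hm, hN, g.e2, g.m2, g.m1, g.n2⟩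

/-- **Good frozen data of the cell give the comparison at each of its points.** -/
theorem Gd.cmp (h : PkOk q d) (T : TB n e q) (g : Gd n A e q d p₀ c Nf)
    (hz : z ∈ Zk q d (A q) p₀) : Cmp c.T Nf (d.E q) (d.m q) (d.N q) z :=
  (g.cm z hz).cmp (mul_nonneg (Real.exp_pos _).le
    (by linarith [r2_ge h T.th T.te z, sq0 (z.1 - z.2)])) (N_pos h T.th _).le

/-- **Every non-empty cell has good frozen data, which compare with the package.** -/
theorem fro_ex' (hn : 1 ≤ n) (hA : NB_M₀ A) (he : NB_M₀ e) (hA1 : EvC fun q => 1 ≤ A q)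
    (h0 : EvC fun q => 0 < e q ∧ e q ≤ 1 / 2) : EvC fun q => ∀ d : Pk n, PkOk q d →
      ∀ p₀ : V n, (Zk q d (A q) p₀).Nonempty → ∃ c Nf, Gd n A e q d p₀ c Nf ∧
        ∀ z ∈ Zk q d (A q) p₀, Cmp c.T Nf (d.E q) (d.m q) (d.N q) z :=
  (TE.ev n hA he hA1 h0).mono fun _ T _ h _ hne => by
    obtain ⟨c, Nf, g⟩ := ex_one hn h T hne
    exact ⟨c, Nf, g, fun z hz => g.cmp h T.tb hz⟩

end Vale.Agent.P088.R2.H696.B1
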