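import Vale.Agent.P088.R2.H696.B1.Reg
import Vale.Agent.P088.R2.H606.EP.Muc

/-!
# P088, zone B1: the points of the region, the level at the midpoint
-/

open Set Filter
open scoped ContDiff Topology

noncomputable section

namespace Vale.Agent.P088.R2.H696.B1

open Vale.Agent.P088.LR Vale.Agent.P088.HY Vale.Agent.P088.HY.T3 Vale.Agent.P088.HY.T4
open Vale.Agent.P088.R2.H31.EP
open Vale.Agent.P088.R2.H238.C
open Vale.Agent.P088.R2.H475
open Vale.Agent.P088.R2.H464.Cu (mid dif rq)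

variable {n : ℕ} {q : Cst} {d : Pk n} {z : VV n} {e : Cst → ℝ}

/-! ## The explicit level function -/

theorem lv_ev (hn : 1 ≤ n) (h : PkOk q d) (T : Th q) {x : V n} (hx : x ∈ Gp q d) :
    lv n q.σ q.R d.kap d.Gs =ᶠ[𝓝 x] d.l := by
  filter_upwards [(isOpen_Gp h).mem_nhds hx] with y hy
  exact (Gp_lv hn h T hy).symm

theorem lv_fd (hn : 1 ≤ n) (h : PkOk q d) (T : Th q) {x : V n} (hx : x ∈ Gp q d) (v : V n) :
    fderiv ℝ (lv n q.σ q.R d.kap d.Gs) x v = ∑ i, ww n q x i * v i := by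
  rw [(lv_ev hn h T hx).fderiv_eq]
  exact l_fd h T (Gp_th h T hx) v

theorem ww_fd (x w v : V n) : fderiv ℝ (fun p : V n => ∑ i, ww n q p i * v i) x w =
    q.σ / q.R * ∑ i, w i * v i := by
  have h1 : ∀ i, HasFDerivAt (fun p : V n => ww n q p i * v i)
      ((v i * (q.σ * q.R⁻¹)) • ContinuousLinearMap.proj (R := ℝ) (φ := fun _ : Fin n => ℝ) i) x := by
    intro i
    have h3 : HasFDerivAt (fun y : V n => y i)
        (ContinuousLinearMap.proj (R := ℝ) (φ := fun _ : Fin n => ℝ) i) x :=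
      (ContinuousLinearMap.proj (R := ℝ) (φ := fun _ : Fin n => ℝ) i).hasFDerivAt
    have h4 := ((((h3.const_mul q.R⁻¹).sub_const (e0 n i)).const_mul q.σ).const_add
      (e0 n i)).mul_const (v i)
    refine h4.congr_fderiv ?_
    rw [smul_smul, smul_smul, mul_assoc]
  have h2 := HasFDerivAt.fun_sum (u := Finset.univ) fun i _ => h1 i
  rw [h2.fderiv, _root_.sum_apply, Finset.mul_sum]
  refine Finset.sum_congr rfl fun i _ => ?_
  simp only [_root_.smul_apply, ContinuousLinearMap.proj_apply, smul_eq_mul]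
  rw [div_eq_mul_inv]
  ring

theorem lv_fd2 (hn : 1 ≤ n) (h : PkOk q d) (T : Th q) {x : V n} (hx : x ∈ Gp q d) (v w : V n) :
    fderiv ℝ (fun p => fderiv ℝ (lv n q.σ q.R d.kap d.Gs) p v) x w =
      q.σ / q.R * ∑ i, w i * v i := by
  have h1 : (fun p => fderiv ℝ (lv n q.σ q.R d.kap d.Gs) p v) =ᶠ[𝓝 x]
      fun p => ∑ i, ww n q p i * v i := by
    filter_upwards [(isOpen_Gp h).mem_nhds hx] with y hy
    exact lv_fd hn h T hy v
  rw [h1.fderiv_eq]
  exact ww_fd x w v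

/-! ## The points of the region -/

/-- `2 l̃(p)`, `l̃ = l + μc ∘ l`. -/
def vB (q : Cst) (d : Pk n) (z : VV n) : ℝ := 2 * (d.l (mid z) + d.μc q (d.l (mid z)))

/-- The facts about a point of the region. -/
structure PB (e : Cst → ℝ) (q : Cst) (d : Pk n) (z : VV n) : Prop where
  nu : NuB e q d z
  gz : z ∈ Gz q d
  x : |d.l z.1 - d.u q z / 2| ≤ 1 / 7
  y : |d.l z.2 - d.u q z / 2| ≤ 1 / 7
  p : |d.l (mid z) - d.u q z / 2| ≤ 1 / 7
  uv : d.u q z = vB q d z + q.σ / (4 * q.R) * HY.sq (z.1 - z.2)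
  v1 : vB q d z ≤ d.u q z
  v2 : d.u q z ≤ vB q d z + 1 / 1000000
  ev : Real.exp (vB q d z) ≤ d.E q z
  ve : 99 / 100 * d.E q z ≤ Real.exp (vB q d z)
  /-- the slope at `v` -/
  n1 : q.M₀ ≤ deriv d.Φ (vB q d z)
  nN : deriv d.Φ (vB q d z) ≤ d.N q z
  k0 : 0 < deriv (deriv d.Φ) (vB q d z)
  k1 : deriv (deriv d.Φ) (vB q d z) ≤ 41 / 20 * deriv d.Φ (vB q d z)
  /-- the gradient -/
  w1 : 99 / 100 ≤ HY.sq (ww n q (mid z))
  w2 : HY.sq (ww n q (mid z)) ≤ 101 / 100

theorem pB (h : PkOk q d) (T : TB n e q) (hz : z ∈ OB q d) : PB e q d z := by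
  have nu := nuB h T hz
  have hR := T.th.R1
  have hR0 := T.th.R0
  have hσ := T.th.σ0
  have hσ1 := T.th.σ1
  have hlM := T.logM
  have hl0 := l0_nn h T.th
  have hth : d.uth q = 2 * d.l₀ q + 22 / 10 * q.R := rfl
  have hl1 := l0_le h T.th
  have hs := nu.ds
  have hA : √(HY.sq (z.1 - z.2)) ≤ 1 / 100 := en_le_of_sq (by norm_num) (by linarith)
  have hrm := room h T.th hA (by linarith) (by linarith [nu.u0]) (by linarith [nu.ut])
  have gz := hz.1
  have huv : d.u q z = vB q d z + q.σ / (4 * q.R) * HY.sq (z.1 - z.2) := by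
    rw [u_Gz' h T.th gz]
    unfold vB
    ring
  have hq : 0 ≤ q.σ / (4 * q.R) * HY.sq (z.1 - z.2) := mul_nonneg (by positivity) (sq0 _)
  have hq2 : q.σ / (4 * q.R) * HY.sq (z.1 - z.2) ≤ 1 / 1000000 := by
    have h1 : q.σ / (4 * q.R) ≤ 1 / 100 := by
      rw [div_le_iff₀ (by positivity)]
      linarith
    calc q.σ / (4 * q.R) * HY.sq (z.1 - z.2) ≤ 1 / 100 * (1 / 10000) :=
          mul_le_mul h1 hs (sq0 _) (by norm_num)
      _ = 1 / 1000000 := by norm_num
  have hv1 : vB q d z ≤ d.u q z := by linarith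
  have hv2 : d.u q z ≤ vB q d z + 1 / 1000000 := by linarith
  have hmono : StrictMono (deriv d.Φ) := strictMono_of_deriv_pos h.top.k0
  have hw := Gp_sq h T.th gz.2.2.1
  refine ⟨nu, gz, hrm.x.trans (by norm_num), hrm.y.trans (by norm_num),
    hrm.p.trans (by norm_num), huv, hv1, hv2, Real.exp_le_exp.2 hv1, ?_, N_ge h _,
    hmono.monotone hv1, K_pos h _, ?_, by linarith [hw.1], by linarith [hw.2]⟩
  · have h1 : Real.exp (d.u q z) ≤ Real.exp (vB q d z) * Real.exp (1 / 1000000) := by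
      rw [← Real.exp_add, Real.exp_le_exp]
      exact hv2
    have h2 : Real.exp (1 / 1000000 : ℝ) ≤ 100 / 99 := by
      have h3 := Real.add_one_le_exp (-(1 / 1000000) : ℝ)
      have h4 : Real.exp (1 / 1000000 : ℝ) = (Real.exp (-(1 / 1000000) : ℝ))⁻¹ := by
        rw [← Real.exp_neg, neg_neg]
      rw [h4, inv_le_comm₀ (Real.exp_pos _) (by norm_num)]
      norm_num
      linarith
    have h5 := Real.exp_pos (vB q d z)
    have h6 : d.E q z = Real.exp (d.u q z) := rfl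
    rw [h6]
    nlinarith
  · have := h.top.k1 (vB q d z) (hv1.trans nu.ta)
    linarith

/-- The support of the cut-off of `zB`. -/
theorem supp_OB (h : PkOk q d) (T : TB n e q) (hN2 : q.c₀ ≤ 1 / 100) :
    tsupport (d.ch q .zB) ⊆ OB q d := by
  intro z hz
  have hk : H867.EP.Near .zB := Or.inr (Or.inr (Or.inr (Or.inl rfl)))
  have hs := T.nr.sm d h
  have hR := T.th.R1
  have hR0 := T.th.R0
  have hc0 := T.th.c0
  have hM := T.th.M1
  have hta := T.nr.u_le h hk hz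
  have hρ := T.nr.ρ_le h hk hz
  have hr2 : d.r2 z ≤ 4 * q.c₀ ^ 2 := hρ
  have hr1 : d.r2 z < 1 := by nlinarith
  have hNp : 0 < d.N q z := N_pos h T.th _
  have hE : 0 < d.E q z := Real.exp_pos _
  -- the sides on the support
  have hB : d.N q z ^ (13 / 5 : ℝ) ≤ d.E q z := by
    have h1 := (H867.EP.ch_tside (k := .zB) Fl_pair isOpen_univ (i := .eB) (by decide)
      (hs.cv .eB).continuous.continuousOn (mem_univ z) hz).1 (by decide)
    have h2 : (d.cp q).uB ≤ (d.cp q).VB (d.u q z) :=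
      H867.EP.tauU_ge (u := fun z => (d.cp q).VB (d.u q z)) hs.cp.wB h1
    have h3 : 0 ≤ d.u q z - 13 / 5 * Real.log (d.N q z) := h2
    have h4 : (0 : ℝ) < d.N q z ^ (13 / 5 : ℝ) := Real.rpow_pos_of_pos hNp _
    have h5 : Real.log (d.N q z ^ (13 / 5 : ℝ)) ≤ Real.log (d.E q z) := by
      unfold Pk.E
      rw [Real.log_exp, Real.log_rpow hNp]
      linarith
    exact (Real.log_le_log_iff h4 (Real.exp_pos _)).1 h5
  have hm : d.m q z ≤ 2 * q.Λ * d.m₁ q (d.u q z) := by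
    have h1 := (H867.EP.ch_tside (k := .zB) Fl_pair isOpen_univ (i := .co) (by decide)
      (hs.cv .co).continuous.continuousOn (mem_univ z) hz).2 (by decide)
    exact H867.EP.tauM_le hs.cp.Λ (hs.cp.M₁p _) (hs.rq0 z) h1
  have hN' : deriv d.Φ (d.u q z) ^ (13 / 5 : ℝ) ≤ 2 * Real.exp (d.u q z) := by
    have : d.N q z ^ (13 / 5 : ℝ) ≤ 2 * d.E q z := by linarith
    exact this
  have hu0 := u_ge h T hN'
  have htb : d.u q z < d.utb q := by
    have := uta_utb (d := d) T.th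
    linarith
  have hup := u_up h T hN' htb.le
  have hlM := T.logM
  have hl0 := l0_nn h T.th
  have hl1 := l0_le h T.th
  have hth : d.uth q = 2 * d.l₀ q + 22 / 10 * q.R := rfl
  have hA : √(HY.sq (z.1 - z.2)) ≤ 1 := by
    refine en_le_of_sq (by norm_num) ?_
    have := r2_ge h T.th T.te z
    have := sq0 (z.1 - z.2)
    nlinarith
  have hrm := room h T.th hA (by linarith) (by linarith) (by linarith [hup.1])
  have hx := abs_le.1 hrm.x
  have hy := abs_le.1 hrm.y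
  have hp := abs_le.1 hrm.p
  refine ⟨⟨⟨by linarith, by linarith [hup.1]⟩, ⟨by linarith, by linarith [hup.1]⟩,
    ⟨by linarith, by linarith [hup.1]⟩, hr1⟩, htb, by linarith, ?_⟩
  have h3 : 0 < q.Λ * d.m₁ q (d.u q z) := mul_pos (by linarith [T.Λ1]) (T.m1_pos _)
  linarith

end Vale.Agent.P088.R2.H696.B1
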