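import Vale.Agent.P088.R2.H696.B1.Ok
import Vale.Agent.P088.R2.H696.B1.Pt

/-!
# P088, zone B1: the frozen data of a cell are good

`M Mᵀ = s₁(p₀)`, `N = M⁻¹`, `l_c = k ∘ lv`, `k(s) = s + μc(s)` on the levels of the cell.
-/

open Finset Set Filter
open scoped ContDiff Topology

noncomputable section

namespace Vale.Agent.P088.R2.H696.B1

open Vale.Agent.P088.LR Vale.Agent.P088.HY
open Vale.Agent.P088.R2.H31.EP
open Vale.Agent.P088.R2.H238.C
open Vale.Agent.P088.R2.H475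
open Vale.Agent.P088.R2.H961.F
open Vale.Agent.P088.R2.H464.EP (Sm)
open Vale.Agent.P088.R2.H606.EP (muc_b)

variable {n : ℕ} {q : Cst} {d : Pk n} {z : VV n} {e : Cst → ℝ}

/-- The cell (helper676's `Zp n (OB q d) A p₀`). -/
def ZB (q : Cst) (d : Pk n) (A : ℝ) (p₀ : V n) : Set (VV n) :=
  OB q d ∩ {z | ∀ j, |((1 / 2 : ℝ) • (z.1 + z.2)) j - p₀ j| < 3 / 2 * A}

/-- The bounds of the frame. -/
structure FmB (M N : Matrix (Fin n) (Fin n) ℝ) : Prop where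
  lo : ∀ w : V n, 98 / 100 * HY.sq w ≤ ∑ i, (∑ k, w k * M k i) ^ 2
  up : ∀ w : V n, ∑ i, (∑ k, w k * M k i) ^ 2 ≤ 102 / 100 * HY.sq w
  cl : ∀ i j, |∑ k, M.col i k * M.col j k| ≤ 102 / 100
  qn : ∀ x : V n, ∑ i, (∑ k, N i k * x k) ^ 2 ≤ 102 / 100 * HY.sq x

/-- The extended level of a cell: `k(s) = s + μc(s)` for `|s - s₀| ≤ a`. -/
structure KB (q : Cst) (d : Pk n) (k : ℝ → ℝ) (s₀ a : ℝ) : Prop where
  sm : ContDiff ℝ ∞ k
  eq : ∀ s, |s - s₀| ≤ a → k s = s + d.μc q s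
  k1 : ∀ s, 3 / 4 ≤ deriv k s ∧ deriv k s ≤ 5 / 4

/-- The bound of `k''`. -/
def c2B : ℝ := |muC 1| / 8 + 1

theorem KB.k2 (h : PkOk q d) (hR : 8 * H606.EP.cSt ≤ q.R) {k : ℝ → ℝ} {s₀ a s : ℝ}
    (hk : KB q d k s₀ a) (hs : |s - s₀| < a) : |deriv (deriv k) s| ≤ c2B := by
  have hm := muc_b h hR s
  have h1 : k =ᶠ[𝓝 s] fun t => t + d.μc q t := by
    have ho : IsOpen {t : ℝ | |t - s₀| < a} :=
      isOpen_lt (continuous_abs.comp (continuous_id.sub continuous_const)) continuous_const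
    filter_upwards [ho.mem_nhds hs] with t ht using hk.eq t (le_of_lt ht)
  have hd : Differentiable ℝ (d.μc q) := hm.1.differentiable (by simp)
  have h2 : deriv (fun t => t + d.μc q t) = fun t => 1 + deriv (d.μc q) t := by
    funext t
    exact ((hasDerivAt_id t).add (hd t).hasDerivAt).deriv
  have h3 : deriv (deriv k) s = deriv (deriv (d.μc q)) s := by
    have h4 : deriv k =ᶠ[𝓝 s] fun t => 1 + deriv (d.μc q) t := by
      have := h1.deriv
      rwa [h2] at this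
    rw [h4.deriv_eq]
    exact deriv_const_add 1
  rw [h3]
  exact hm.2.2.2

/-- The level at a point of the cell. -/
theorem lvl_cell (hn : 1 ≤ n) (h : PkOk q d) (T : TB n e q) {A : ℝ} (hA : 0 ≤ A)
    (hAR : 2 * ((n : ℝ) + 1) * A ≤ q.R / 2) {p₀ : V n} (hz : z ∈ ZB q d A p₀) :
    |lv n q.σ q.R d.kap d.Gs (md z) - lv n q.σ q.R d.kap d.Gs p₀| ≤
      101 / 100 * (3 / 2 * (((n : ℝ) + 1) * A)) := by
  have gz : z ∈ Gz q d := hz.1.1
  have gp : md z ∈ Gp q d := gz.2.2.1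
  have h1 : HY.sq (p₀ - md z) ≤ (3 / 2 * (((n : ℝ) + 1) * A)) ^ 2 := by
    unfold HY.sq
    have h2 : ∀ j ∈ (Finset.univ : Finset (Fin n)), (p₀ - md z) j ^ 2 ≤ (3 / 2 * A) ^ 2 := by
      intro j _
      have h3 := (hz.2 j).le
      rw [← sq_abs, Pi.sub_apply, abs_sub_comm]
      exact pow_le_pow_left₀ (abs_nonneg _) h3 2
    refine (Finset.sum_le_sum h2).trans ?_
    rw [Finset.sum_const, Finset.card_univ, Fintype.card_fin, nsmul_eq_mul]
    have hn0 : (0 : ℝ) ≤ n := Nat.cast_nonneg n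
    have h4 : (n : ℝ) ≤ ((n : ℝ) + 1) ^ 2 := by nlinarith
    calc (n : ℝ) * (3 / 2 * A) ^ 2 ≤ ((n : ℝ) + 1) ^ 2 * (3 / 2 * A) ^ 2 :=
          mul_le_mul_of_nonneg_right h4 (sq_nonneg _)
      _ = _ := by ring
  have hn0 : (0 : ℝ) ≤ n := Nat.cast_nonneg n
  have hna : 0 ≤ ((n : ℝ) + 1) * A := by positivity
  have h2 : √(HY.sq (p₀ - md z)) ≤ 3 / 2 * (((n : ℝ) + 1) * A) := en_le_of_sq (by positivity) h1
  have h3 : √(HY.sq (p₀ - md z)) ≤ q.R / 2 := by linarith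
  have h4 := l_lip h T.th gp h3
  have h5 := near_th h T.th gp h3
  have e1 : lv n q.σ q.R d.kap d.Gs p₀ = d.l p₀ := by
    rw [h.lev.lit]
    exact (levG_eq_lv hn T.th.σ0 T.th.σ1 h5).symm
  have e2 : lv n q.σ q.R d.kap d.Gs (md z) = d.l (md z) := (Gp_lv hn h T.th gp).symm
  rw [e1, e2, abs_sub_comm]
  linarith

/-- **The frozen data of a cell are good.** -/
theorem cell_ok (hn : 1 ≤ n) (h : PkOk q d) (T : TB n e q) (hR : 8 * H606.EP.cSt ≤ q.R) {A : ℝ}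
    (hA : 0 < A) (hAR : 2 * ((n : ℝ) + 1) * A ≤ q.R / 2) (he : e q ≤ 1 / 2) {p₀ : V n}
    {M N : Matrix (Fin n) (Fin n) ℝ} (nm : N * M = 1) (F : FmB M N) {k : ℝ → ℝ}
    (hk : KB q d k (lv n q.σ q.R d.kap d.Gs p₀) (2 * (((n : ℝ) + 1) * A)))
    {Φ : ℝ → ℝ} (cΦ : ContDiff ℝ ∞ Φ) (eΦ : deriv Φ = deriv d.Φ)
    (cq : ContDiff ℝ ∞ (lv n q.σ q.R d.kap d.Gs))
    (pl : ∀ z (x : Fin n → ℝ), 0 ≤ ∑ i, ∑ j,
      ((mkCD M N nm hk.sm cΦ cq).T.l2 i j : VV n → ℝ) z * x i * x j)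
    (pφ : ∀ z (x : Fin n → ℝ), 0 ≤ ∑ i, ∑ j,
      ((mkCD M N nm hk.sm cΦ cq).T.φ2 i j : VV n → ℝ) z * x i * x j) :
    (mkCD M N nm hk.sm cΦ cq).Ok (ZB q d A p₀) (mkN hk.sm cΦ cq) (LamB c2B 3) (e q) := by
  have hn0 : (0 : ℝ) ≤ n := Nat.cast_nonneg n
  have hc2 : 0 ≤ c2B := by unfold c2B; positivity
  have hs : ∀ z ∈ ZB q d A p₀, |lv n q.σ q.R d.kap d.Gs (md z) -
      lv n q.σ q.R d.kap d.Gs p₀| < 2 * (((n : ℝ) + 1) * A) := fun z hz => by
    have h1 := lvl_cell hn h T hA.le hAR hz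
    have h2 : 0 < ((n : ℝ) + 1) * A := by positivity
    linarith
  have hv : ∀ z ∈ ZB q d A p₀, 2 * k (lv n q.σ q.R d.kap d.Gs (md z)) = vB q d z := fun z hz => by
    have gp : md z ∈ Gp q d := hz.1.1.2.2.1
    rw [hk.eq _ (hs z hz).le, ← Gp_lv hn h T.th gp]
    rfl
  have hlb : ∀ z ∈ ZB q d A p₀, LB M k (lv n q.σ q.R d.kap d.Gs) c2B (md z) := by
    intro z hz
    have P := pB h T hz.1
    have gp : md z ∈ Gp q d := hz.1.1.2.2.1
    have hw1 : 99 / 100 ≤ HY.sq (ww n q (md z)) := P.w1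
    have hw2 : HY.sq (ww n q (md z)) ≤ 101 / 100 := P.w2
    have e1 : ∀ i, fderiv ℝ (lv n q.σ q.R d.kap d.Gs) (md z) (M.col i) =
        ∑ k, ww n q (md z) k * M k i := fun i => lv_fd hn h T.th gp _
    have hup := F.up (ww n q (md z))
    have hlo := F.lo (ww n q (md z))
    refine ⟨fun i => ?_, ?_, fun i j => ?_, (hk.k1 _).1, (hk.k1 _).2,
      hk.k2 h hR (hs z hz)⟩
    · rw [e1]
      refine abs_le_of_sq_le_sq ?_ (by norm_num)
      have h1 : (∑ k, ww n q (md z) k * M k i) ^ 2 ≤ ∑ i, (∑ k, ww n q (md z) k * M k i) ^ 2 :=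
        Finset.single_le_sum (f := fun i => (∑ k, ww n q (md z) k * M k i) ^ 2)
          (fun i _ => sq_nonneg _) (Finset.mem_univ i)
      linarith
    · simp only [e1]
      linarith
    · rw [lv_fd2 hn h T.th gp, abs_mul]
      have h1 := F.cl i j
      have hR0 := T.th.R0
      have hσ := T.th.σ0
      have h2 : |q.σ / q.R| ≤ 1 / 100 := by
        rw [abs_of_pos (by positivity), div_le_iff₀ hR0]
        have := T.th.σ1
        have := T.th.R1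
        linarith
      calc |q.σ / q.R| * |∑ k, M.col i k * M.col j k| ≤ 1 / 100 * (102 / 100) :=
            mul_le_mul h2 h1 (abs_nonneg _) (by norm_num)
        _ ≤ 1 := by norm_num
  have hnb : ∀ z ∈ ZB q d A p₀, NB Φ 3 (2 * k (lv n q.σ q.R d.kap d.Gs (md z))) := by
    intro z hz
    have P := pB h T hz.1
    rw [hv z hz]
    have hM := T.th.M1
    have h1 := P.n1
    refine ⟨?_, ?_, ?_⟩
    · rw [eΦ]; linarith
    · rw [eΦ]; exact P.k0.le
    · rw [eΦ]; linarith [P.k1]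
  -- the numbers
  have hE : ∀ z ∈ ZB q d A p₀, ((mkCD M N nm hk.sm cΦ cq).T.e : VV n → ℝ) z =
      Real.exp (vB q d z) := fun z hz => by
    have h1 : ((mkCD M N nm hk.sm cΦ cq).T.e : VV n → ℝ) z =
      1 * Real.exp (2 * k (lv n q.σ q.R d.kap d.Gs (md z))) := rfl
    rw [h1, one_mul, hv z hz]
  have hq : ∀ z ∈ ZB q d A p₀, ((mkCD M N nm hk.sm cΦ cq).T.e : VV n → ℝ) z *
      ((mkCD M N nm hk.sm cΦ cq).T.qq : VV n → ℝ) z ≤ 2 * d.m q z := fun z hz => by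
    have P := pB h T hz.1
    have h1 : ((mkCD M N nm hk.sm cΦ cq).T.qq : VV n → ℝ) z ≤
        102 / 100 * HY.sq (z.1 - z.2) := by
      rw [T_qq]
      exact F.qn (z.1 - z.2)
    have h2 := r2_ge h T.th T.te z
    have h3 := sq0 (z.1 - z.2)
    rw [hE z hz]
    have h4 : ((mkCD M N nm hk.sm cΦ cq).T.qq : VV n → ℝ) z ≤ 2 * d.r2 z := by linarith
    have h5 : 0 ≤ ((mkCD M N nm hk.sm cΦ cq).T.qq : VV n → ℝ) z := by
      rw [T_qq]
      exact Finset.sum_nonneg fun i _ => sq_nonneg _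
    have hEp : 0 < d.E q z := Real.exp_pos _
    calc Real.exp (vB q d z) * ((mkCD M N nm hk.sm cΦ cq).T.qq : VV n → ℝ) z ≤
          d.E q z * (2 * d.r2 z) := mul_le_mul P.ev h4 h5 hEp.le
      _ = 2 * d.m q z := by unfold Pk.m; ring
  refine ok_of hk.sm cΦ cq hlb hnb hc2 (by norm_num) pl pφ T.e0 T.e1 (fun z hz => ?_)
    fun z hz => ?_
  · have P := pB h T hz.1
    have h1 := hq z hz
    have h2 := eqq_nn (M := M) (N := N) (nm := nm) (z := z) hk.sm cΦ cq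
    have h3 := pow_le_pow_left₀ (by linarith) (by linarith :
      1 + ((mkCD M N nm hk.sm cΦ cq).T.e : VV n → ℝ) z *
        ((mkCD M N nm hk.sm cΦ cq).T.qq : VV n → ℝ) z ≤ 1 + 2 * d.m q z) 3
    refine h3.trans (P.nu.m3.trans ?_)
    rw [hE z hz]
    have h4 := P.ve
    have h5 : 0 < e q ^ 2 := by have := T.e0; positivity
    have h6 := Real.exp_pos (vB q d z)
    have hEp : 0 < d.E q z := Real.exp_pos _
    nlinarith
  · have P := pB h T hz.1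
    have h1 := hq z hz
    have h2 := eqq_nn (M := M) (N := N) (nm := nm) (z := z) hk.sm cΦ cq
    rw [hv z hz, eΦ]
    have hM := T.th.M1
    have hN1 := P.n1
    have h3 := pow_le_pow_left₀ (by linarith) (by linarith [P.nN] :
      deriv d.Φ (vB q d z) + (1 + ((mkCD M N nm hk.sm cΦ cq).T.e : VV n → ℝ) z *
        ((mkCD M N nm hk.sm cΦ cq).T.qq : VV n → ℝ) z) ≤ d.N q z + (1 + 2 * d.m q z)) 2
    refine h3.trans (P.nu.m2.trans ?_)
    rw [hE z hz]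
    have h4 := P.ve
    have hEp : 0 < d.E q z := Real.exp_pos _
    nlinarith

end Vale.Agent.P088.R2.H696.B1
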