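import Vale.Agent.P088.R2.H696.B1.Lv
import Vale.Agent.P088.R2.H724.B1.Fam
import Vale.Agent.P088.R2.H591.B1.Mat

/-!
# P088, zone B1: existence of good frozen data for every cell
-/

open Finset Set Filter
open scoped ContDiff Topology

noncomputable section

namespace Vale.Agent.P088.R2.H696.B1

open Vale.Agent.P088.LR Vale.Agent.P088.HY Vale.Agent.P088.HY.T3 Vale.Agent.P088.HY.T4
open Vale.Agent.P088.R2.H31.EP
open Vale.Agent.P088.R2.H238.C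
open Vale.Agent.P088.R2.H475
open Vale.Agent.P088.R2.H961.F
open Vale.Agent.P088.R2.H464.EP (Sm)
open Vale.Agent.P088.R2.H464.Cu (mid)
open Vale.Agent.P088.R2.H591.B1 (Tm Fm mat_ex)
open Vale.Agent.P088.R2.H724.B1 (ff Cub Zk Fro)
open Vale.Agent.P088.R2.H676.F (MN)
open Vale.Agent.P088.R2.H516.B (mu)
open Vale.Agent.P088.R2.H606.EP (cSt)

variable {n : ℕ} {q : Cst} {d : Pk n} {z : VV n} {e A : Cst → ℝ}

/-- All the conditions on the constants. -/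
structure TE (n : ℕ) (A e : Cst → ℝ) (q : Cst) : Prop where
  tb : TB n e q
  tl : TL A q
  tm : Tm n q
  eh : e q ≤ 1 / 2
  /-- `M₀` is large depending on `A` -/
  MA : 1 / 2 * Real.log q.Cs + 3 + 6 * (((n : ℝ) + 1) * A q) ≤ 8 / 10 * Real.log q.M₀
  Cs1 : 1 ≤ q.Cs
  /-- `R` is large depending on `A` -/
  RA : 100 * (((n : ℝ) + 1) * A q) ≤ q.R

theorem TE.ev (n : ℕ) (hA : NB_M₀ A) (he : NB_M₀ e) (hA1 : EvC fun q => 1 ≤ A q)
    (h0 : EvC fun q => 0 < e q ∧ e q ≤ 1 / 2) : EvC (TE n A e) := by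
  have h1 := EvC.at_M₀ (fun q t => 1 / 2 * Real.log q.Cs + 3 + 6 * (((n : ℝ) + 1) * A q) ≤
    8 / 10 * Real.log t) fun q =>
      (Real.tendsto_log_atTop.const_mul_atTop (by norm_num : (0 : ℝ) < 8 / 10)).eventually_ge_atTop _
  have hA' : NB_R A := fun q => by
    have h2 := hA q.b_R
    have h3 := hA q
    have h4 : q.b_R.b_M₀ = q.b_M₀ := rfl
    rw [h4] at h2
    exact h2.symm.trans h3
  have h2 := EvC.at_R (fun q t => 100 * (((n : ℝ) + 1) * A q) ≤ t) fun q => eventually_ge_atTop _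
  have h3 := TB.ev n he (h0.mono fun q h => ⟨h.1, by linarith [h.2]⟩)
  refine (((h3.and (TL.ev hA1)).and ((H591.B1.EvC.tm n).and (h0.and EvC.pos))).and
    (h1.and h2)).mono ?_
  rintro q ⟨⟨⟨a1, a2⟩, a3, a4, ⟨-, ⟨-, -, -, -, b5, -⟩, -⟩⟩, a5, a6⟩
  have e1 : A q.b_M₀ = A q := hA q
  have e2 : A q.b_R = A q := hA' q
  have e3 : q.b_M₀.Cs = q.Cs := rfl
  rw [e1, e3] at a5
  rw [e2] at a6
  exact ⟨a1, a2, a3, a4.2, a5, b5, a6⟩

theorem Zk_eq (A : ℝ) (p₀ : V n) : Zk q d A p₀ = ZB q d A p₀ := rfl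

/-- The centre and the points of the cube of a cell. -/
theorem cub (hn : 1 ≤ n) (h : PkOk q d) (T : TE n A e q) {p₀ : V n}
    (hz : z ∈ Zk q d (A q) p₀) : p₀ ∈ Gp q d ∧
      H313.Mu.sw q.Cs q.M₀ + 1 + 2 * (2 * (((n : ℝ) + 1) * A q)) ≤ d.l p₀ ∧
      d.l p₀ + 2 * (2 * (((n : ℝ) + 1) * A q)) ≤ d.l₀ q + 3 * q.R ∧
      ∀ p ∈ Cub (A q) p₀, lv n q.σ q.R d.kap d.Gs p = d.l p ∧
        |d.l p - d.l p₀| ≤ 2 * (((n : ℝ) + 1) * A q) := by
  have P := pB h T.tb hz.1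
  have hA1 := T.tl.A1
  have hRA := T.RA
  have hR := T.tb.th.R0
  have hR1 := T.tb.th.R1
  have n0 : (0 : ℝ) ≤ n := Nat.cast_nonneg n
  obtain ⟨B, hB⟩ : ∃ B, B = ((n : ℝ) + 1) * A q := ⟨_, rfl⟩
  have hB0 : 0 < B := by rw [hB]; positivity
  rw [← hB] at hRA ⊢
  have h1 := lvl_cell hn h T.tb (by linarith : 0 ≤ A q) (by linarith) hz
  rw [← hB] at h1
  have gp : mid z ∈ Gp q d := P.gz.2.2.1
  -- distances
  have dist : ∀ p ∈ Cub (A q) p₀, √(HY.sq (p - p₀)) ≤ 3 / 2 * B := by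
    intro p hp
    refine en_le_of_sq (by positivity) ?_
    have h2 : ∀ j ∈ (Finset.univ : Finset (Fin n)), (p - p₀) j ^ 2 ≤ (3 / 2 * A q) ^ 2 := by
      intro j _
      have h3 := (hp j).le
      rw [← sq_abs, Pi.sub_apply]
      exact pow_le_pow_left₀ (abs_nonneg _) h3 2
    refine (Finset.sum_le_sum h2).trans ?_
    rw [Finset.sum_const, Finset.card_univ, Fintype.card_fin, nsmul_eq_mul]
    have h4 : (n : ℝ) ≤ ((n : ℝ) + 1) ^ 2 := by nlinarith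
    calc (n : ℝ) * (3 / 2 * A q) ^ 2 ≤ ((n : ℝ) + 1) ^ 2 * (3 / 2 * A q) ^ 2 :=
          mul_le_mul_of_nonneg_right h4 (sq_nonneg _)
      _ = (3 / 2 * B) ^ 2 := by rw [hB]; ring
  have hmz : mid z ∈ Cub (A q) p₀ := hz.2
  have d0 : √(HY.sq (p₀ - mid z)) ≤ 3 / 2 * B := by
    rw [en_comm]; exact dist _ hmz
  have l0 := l_lip h T.tb.th gp (by linarith : √(HY.sq (p₀ - mid z)) ≤ q.R / 2)
  have l0' : |d.l p₀ - d.l (mid z)| ≤ 2 * B := by linarith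
  have hl := abs_le.1 l0'
  have hp := abs_le.1 P.p
  have hl0 := l0_nn h T.tb.th
  have hl1 := l0_le h T.tb.th
  have hth : d.uth q = 2 * d.l₀ q + 22 / 10 * q.R := rfl
  have hu0 := P.nu.u0
  have hut := P.nu.ut
  have hlM := T.tb.logM
  have g0 : p₀ ∈ Gp q d := ⟨by linarith, by linarith⟩
  refine ⟨g0, ?_, by linarith, fun p hp => ?_⟩
  · have h2 : H313.Mu.sw q.Cs q.M₀ = 1 / 2 * Real.log q.Cs + 1 / 2 * Real.log q.M₀ := by
      have hC := T.Cs1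
      have hM := T.tb.th.M1
      unfold H313.Mu.sw
      rw [Real.log_mul (by linarith) (by linarith)]
      ring
    have h3 := T.MA
    rw [← hB] at h3
    rw [h2]
    linarith
  · have h2 := dist p hp
    have h3 := near_th h T.tb.th g0 (by linarith : √(HY.sq (p - p₀)) ≤ q.R / 2)
    have h4 := l_lip h T.tb.th g0 (by linarith : √(HY.sq (p - p₀)) ≤ q.R / 2)
    refine ⟨?_, by linarith⟩
    rw [h.lev.lit]
    exact (levG_eq_lv hn T.tb.th.σ0 T.tb.th.σ1 h3).symm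

/-- The comparison of the model with the package. -/
structure CmB (c : CD n) (q : Cst) (d : Pk n) (Nf : Sm (VV n)) (z : VV n) : Prop where
  e1 : (c.T.e : VV n → ℝ) z ≤ d.E q z
  e2 : d.E q z ≤ 2 * (c.T.e : VV n → ℝ) z
  m1 : (mu c.T : VV n → ℝ) z ≤ 2 * (1 + d.m q z)
  m2 : 1 + d.m q z ≤ 2 * (mu c.T : VV n → ℝ) z
  n1 : (Nf : VV n → ℝ) z ≤ d.N q z
  n2 : d.N q z ≤ 2 * (Nf : VV n → ℝ) z

/-- **Good frozen data of a cell.** -/
structure Gd (n : ℕ) (A e : Cst → ℝ) (q : Cst) (d : Pk n) (p₀ : V n) (c : CD n) (Nf : Sm (VV n)) :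
    Prop where
  fro : Fro q d (A q) p₀ c
  mn : MN c
  fm : Fm q d p₀ c.M c.N
  nf : ∀ z ∈ Zk q d (A q) p₀, (Nf : VV n → ℝ) z = deriv d.Φ (2 * ff q d (mid z))
  ok : c.Ok (Zk q d (A q) p₀) Nf (LamB c2B 3) (e q)
  cm : ∀ z ∈ Zk q d (A q) p₀, CmB c q d Nf z

theorem ex_one (hn : 1 ≤ n) (h : PkOk q d) (T : TE n A e q) {p₀ : V n}
    (hne : (Zk q d (A q) p₀).Nonempty) : ∃ c Nf, Gd n A e q d p₀ c Nf := by
  obtain ⟨z₀, hz₀⟩ := hne
  obtain ⟨g0, s1, s2, hcub⟩ := cub hn h T hz₀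
  have hA1 := T.tl.A1
  have hRA := T.RA
  have hR := T.tb.th.R0
  have hσ := T.tb.th.σ0
  have n0 : (0 : ℝ) ≤ n := Nat.cast_nonneg n
  have hB0 : 0 < ((n : ℝ) + 1) * A q := by positivity
  have elv : lv n q.σ q.R d.kap d.Gs p₀ = d.l p₀ := (Gp_lv hn h T.tb.th g0).symm
  obtain ⟨k, hk, k2, k3⟩ := kb_ex h T.tb.th T.tl (s₀ := lv n q.σ q.R d.kap d.Gs p₀)
    (a := 2 * (((n : ℝ) + 1) * A q)) (by positivity) (by linarith) (by rw [elv]; exact s1)
  obtain ⟨M, N, f⟩ := mat_ex h T.tm p₀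
  have cq : ContDiff ℝ ∞ (lv n q.σ q.R d.kap d.Gs) := lv_sm hn T.tb.th
  have Q := lv_Qd hn h T.tb.th (s₀ := lv n q.σ q.R d.kap d.Gs p₀)
    (a := 2 * (((n : ℝ) + 1) * A q)) (by rw [elv]; exact s2)
  have hκ : q.σ / (4 * q.R) ≤ q.σ / q.R / 4 := le_of_eq (by field_simp)
  have cΦ : ContDiff ℝ ∞ d.Φ := h.top.sm
  have F : FmB M N := ⟨f.m_lo h T.tm, f.m_up h T.tm, f.col_mul h T.tm,
    f.n_up h T.tb.th T.tb.te⟩
  have hok := cell_ok hn h T.tb T.tl.Rb (by linarith : 0 < A q) (by linarith) T.eh f.nm F hk cΦ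
    rfl cq (mk_pl hk.sm cΦ cq Q (fun s => (hk.k1 s).1) k2 k3 hκ)
    (mk_pφ hk.sm cΦ cq Q (fun s => (hk.k1 s).1) k2 k3 hκ
      (fun u => (N_pos h T.tb.th u).le) fun u => (h.top.k0 u).le)
  have hkf : ∀ p ∈ Cub (A q) p₀, k (lv n q.σ q.R d.kap d.Gs p) = ff q d p := fun p hp => by
    obtain ⟨a1, a2⟩ := hcub p hp
    rw [hk.eq _ (by rw [a1, elv]; exact a2), a1]
    rfl
  refine ⟨mkCD M N f.nm hk.sm cΦ cq, mkN hk.sm cΦ cq,
    ⟨f.mm, rfl, hkf, fun p hp => ?_⟩, f.to_MN h T.tb.th T.tm, f, fun z hz => ?_, hok,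
    fun z hz => ?_⟩
  · change d.Φ (2 * k (lv n q.σ q.R d.kap d.Gs p)) = _
    rw [hkf p hp]
  · change deriv d.Φ (2 * k (lv n q.σ q.R d.kap d.Gs (mid z))) = _
    rw [hkf _ hz.2]
  · have P := pB h T.tb hz.1
    have hv : 2 * k (lv n q.σ q.R d.kap d.Gs (mid z)) = vB q d z := by
      rw [hkf _ hz.2]; rfl
    have hE : ((mkCD M N f.nm hk.sm cΦ cq).T.e : VV n → ℝ) z = Real.exp (vB q d z) := by
      have h1 : ((mkCD M N f.nm hk.sm cΦ cq).T.e : VV n → ℝ) z =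
        1 * Real.exp (2 * k (lv n q.σ q.R d.kap d.Gs (mid z))) := rfl
      rw [h1, one_mul, hv]
    have hN : (mkN hk.sm cΦ cq : VV n → ℝ) z = deriv d.Φ (vB q d z) := by
      change deriv d.Φ (2 * k (lv n q.σ q.R d.kap d.Gs (mid z))) = _
      rw [hv]
    have hEp : 0 < d.E q z := Real.exp_pos _
    have r1 := r2_ge h T.tb.th T.tb.te z
    have r2 := r2_le h T.tb.th T.tb.te z
    have sq1 := sq0 (z.1 - z.2)
    have n1 := f.n_lo h T.tb.th T.tb.te (z.1 - z.2)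
    have n2 := f.n_up h T.tb.th T.tb.te (z.1 - z.2)
    have hqq : ((mkCD M N f.nm hk.sm cΦ cq).T.qq : VV n → ℝ) z =
        ∑ i, (∑ k, N i k * (z.1 - z.2) k) ^ 2 := T_qq _ z
    have hmu := mu_v (M := M) (N := N) (nm := f.nm) (z := z) hk.sm cΦ cq
    have hm : d.m q z = d.E q z * d.r2 z := rfl
    obtain ⟨Q, hQ⟩ : ∃ Q, Q = ∑ i, (∑ k, N i k * (z.1 - z.2) k) ^ 2 := ⟨_, rfl⟩
    rw [← hQ] at hqq n1 n2
    rw [hE, hqq] at hmu
    have hve := P.ve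
    have hev := P.ev
    have hv0 := Real.exp_pos (vB q d z)
    have q1 : Q ≤ 2 * d.r2 z := by linarith
    have q2 : 97 / 100 * d.r2 z ≤ Q := by linarith
    have q0 : 0 ≤ d.r2 z := by linarith
    have c1 : Real.exp (vB q d z) * Q ≤ d.E q z * (2 * d.r2 z) :=
      mul_le_mul hev q1 (by linarith) hEp.le
    have c2 : 99 / 100 * d.E q z * (97 / 100 * d.r2 z) ≤ Real.exp (vB q d z) * Q :=
      mul_le_mul hve q2 (by positivity) hv0.le
    have c3 : 0 ≤ d.E q z * d.r2 z := mul_nonneg hEp.le q0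
    refine ⟨by rw [hE]; exact hev, by rw [hE]; linarith, ?_, ?_, by rw [hN]; exact P.nN, ?_⟩
    · rw [hmu, hm]; linarith
    · rw [hmu, hm]; linarith
    · rw [hN]
      have h5 := N_comp h T.tb.th P.nu.ta (P.v1.trans P.nu.ta)
      have h6 : |d.u q z - vB q d z| ≤ 1 / 1000000 := by
        rw [abs_of_nonneg (by linarith [P.v1])]
        linarith [P.v2]
      have h7 : Real.exp (41 / 20 * |d.u q z - vB q d z|) ≤ 2 := by
        have h8 : Real.exp (41 / 20 * |d.u q z - vB q d z|) ≤ Real.exp (1 / 2) := by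
          rw [Real.exp_le_exp]; linarith
        have h9 : Real.exp (1 / 2 : ℝ) ≤ 2 := by
          have h10 := Real.exp_one_lt_d9
          have h11 : Real.exp (1 / 2 : ℝ) ^ 2 = Real.exp 1 := by
            rw [← Real.exp_nat_mul]; norm_num
          have h12 := Real.exp_pos (1 / 2 : ℝ)
          nlinarith
        exact h8.trans h9
      have h8 : 0 ≤ deriv d.Φ (vB q d z) := (N_pos h T.tb.th _).le
      have h9 : d.N q z = deriv d.Φ (d.u q z) := rfl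
      rw [h9]
      calc deriv d.Φ (d.u q z) ≤ deriv d.Φ (vB q d z) *
            Real.exp (41 / 20 * |d.u q z - vB q d z|) := h5
        _ ≤ deriv d.Φ (vB q d z) * 2 := mul_le_mul_of_nonneg_left h7 h8
        _ = _ := by ring

/-- **Every non-empty cell has good frozen data** (`Lam = LamB c2B 3` is a number). -/
theorem fro_ex (hn : 1 ≤ n) (hA : NB_M₀ A) (he : NB_M₀ e) (hA1 : EvC fun q => 1 ≤ A q)
    (h0 : EvC fun q => 0 < e q ∧ e q ≤ 1 / 2) : EvC fun q => ∀ d : Pk n, PkOk q d →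
      ∀ p₀ : V n, (Zk q d (A q) p₀).Nonempty → ∃ c Nf, Gd n A e q d p₀ c Nf :=
  (TE.ev n hA he hA1 h0).mono fun _ T _ h _ hne => ex_one hn h T hne

end Vale.Agent.P088.R2.H696.B1
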