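import Vale.Agent.P088.R2.H696.B1.Fin

/-!
# P088, zone B1: the explicit quadratic level and the extension `k`
-/

open Finset Set Filter
open scoped ContDiff Topology

noncomputable section

namespace Vale.Agent.P088.R2.H696.B1

open Vale.Agent.P088.LR Vale.Agent.P088.HY Vale.Agent.P088.HY.T3 Vale.Agent.P088.HY.T4
open Vale.Agent.P088.R2.H31.EP
open Vale.Agent.P088.R2.H238.C
open Vale.Agent.P088.R2.H475
open Vale.Agent.P088.R2.H961.F
open Vale.Agent.P088.R2.H606.EP (muc_b muc_b1 muc_lo2 μc_eq ct_01 cSt cSt_spec)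

variable {n : ℕ} {q : Cst} {d : Pk n} {z : VV n} {e : Cst → ℝ}

/-! ## The quadratic level -/

theorem lv_lit (hn : 1 ≤ n) (T : Th q) (x : V n) : lv n q.σ q.R d.kap d.Gs x =
    d.l₀ q + q.R / (2 * q.σ) * (HY.sq (ww n q x) - 1) := by
  have hσ := T.σ0
  have hR := T.R0
  have e1 : gy n q.σ (q.R⁻¹ • x) = (HY.sq (ww n q x) - 1) / (2 * q.σ) := gy_wv hn hσ.ne' _
  unfold lv Pk.l₀
  rw [e1]
  field_simp
  ring

theorem ww_hd (x : V n) (i : Fin n) : HasFDerivAt (fun p : V n => ww n q p i)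
    ((q.σ * q.R⁻¹) • ContinuousLinearMap.proj (R := ℝ) (φ := fun _ : Fin n => ℝ) i) x := by
  have h3 : HasFDerivAt (fun y : V n => y i)
      (ContinuousLinearMap.proj (R := ℝ) (φ := fun _ : Fin n => ℝ) i) x :=
    (ContinuousLinearMap.proj (R := ℝ) (φ := fun _ : Fin n => ℝ) i).hasFDerivAt
  have h4 := (((h3.const_mul q.R⁻¹).sub_const (e0 n i)).const_mul q.σ).const_add (e0 n i)
  refine h4.congr_fderiv ?_
  rw [smul_smul]

theorem ww_sm (i : Fin n) : ContDiff ℝ ∞ fun p : V n => ww n q p i := by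
  have e1 : (fun p : V n => ww n q p i) = fun p => e0 n i + q.σ * (q.R⁻¹ * p i - e0 n i) := rfl
  rw [e1]
  exact contDiff_const.add (contDiff_const.mul ((contDiff_const.mul
    (contDiff_apply ℝ ℝ i)).sub contDiff_const))

theorem lv_sm (hn : 1 ≤ n) (T : Th q) : ContDiff ℝ ∞ (lv n q.σ q.R d.kap d.Gs) := by
  have e1 : lv n q.σ q.R d.kap d.Gs = fun x =>
      d.l₀ q + q.R / (2 * q.σ) * ((∑ i, ww n q x i ^ 2) - 1) := funext fun x => lv_lit hn T x
  rw [e1]
  exact contDiff_const.add (contDiff_const.mul ((ContDiff.sum fun i _ =>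
    (ww_sm i).pow 2).sub contDiff_const))

theorem lv_fdg (hn : 1 ≤ n) (T : Th q) (x v : V n) :
    fderiv ℝ (lv n q.σ q.R d.kap d.Gs) x v = ∑ i, ww n q x i * v i := by
  have hσ := T.σ0
  have hR := T.R0
  have e1 : lv n q.σ q.R d.kap d.Gs = fun x =>
      d.l₀ q + q.R / (2 * q.σ) * ((∑ i, ww n q x i ^ 2) - 1) := funext fun x => lv_lit hn T x
  have h2 := (((HasFDerivAt.fun_sum (u := Finset.univ) fun i _ =>
    (ww_hd (q := q) x i).pow 2).sub_const 1).const_mul (q.R / (2 * q.σ))).const_add (d.l₀ q)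
  rw [e1, h2.fderiv]
  simp only [_root_.smul_apply, _root_.sum_apply, ContinuousLinearMap.proj_apply, smul_eq_mul,
    Finset.mul_sum]
  refine Finset.sum_congr rfl fun i _ => ?_
  have e2 : (2 • ww n q x i ^ (2 - 1) : ℝ) = 2 * ww n q x i := by
    rw [nsmul_eq_mul]; norm_num
  rw [e2]
  field_simp

theorem lv_fd2g (hn : 1 ≤ n) (T : Th q) (x v w : V n) :
    fderiv ℝ (fun p => fderiv ℝ (lv n q.σ q.R d.kap d.Gs) p v) x w =
      q.σ / q.R * ∑ i, w i * v i := by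
  have h1 : (fun p => fderiv ℝ (lv n q.σ q.R d.kap d.Gs) p v) =
      fun p => ∑ i, ww n q p i * v i := funext fun p => lv_fdg hn T p v
  rw [h1]
  exact ww_fd x w v

/-- **`Qd` for the explicit level.** -/
theorem lv_Qd (hn : 1 ≤ n) (h : PkOk q d) (T : Th q) {s₀ a : ℝ}
    (hs : s₀ + 2 * a ≤ d.l₀ q + 3 * q.R) :
    Qd (lv n q.σ q.R d.kap d.Gs) (q.σ / q.R) {s | |s - s₀| ≤ 2 * a} where
  sm := lv_sm hn T
  c0 := by
    have := T.σ0
    have := T.R0
    positivity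
  q2 p v := by
    rw [lv_fd2g hn T]
    congr 1
    exact Finset.sum_congr rfl fun i _ => (_root_.sq (v i)).symm
  q1 p v hp := by
    have hσ := T.σ0
    have hσ1 := T.σ1
    have hR := T.R0
    rw [lv_fdg hn T]
    have h1 : (∑ i, ww n q p i * v i) ^ 2 ≤ HY.sq (ww n q p) * HY.sq v :=
      Finset.sum_mul_sq_le_sq_mul_sq _ _ _
    have h2 : HY.sq (ww n q p) ≤ 2 := by
      have hp' : |lv n q.σ q.R d.kap d.Gs p - s₀| ≤ 2 * a := hp
      have h3 := (abs_le.1 hp').2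
      have h4 := lv_lit (d := d) hn T p
      have h5 : q.R / (2 * q.σ) * (HY.sq (ww n q p) - 1) ≤ 3 * q.R := by linarith
      rw [div_mul_eq_mul_div, div_le_iff₀ (by positivity)] at h5
      have h6 : HY.sq (ww n q p) - 1 ≤ 3 * (2 * q.σ) := by
        refine le_of_mul_le_mul_left ?_ hR
        linarith
      linarith
    have h3 : 0 ≤ HY.sq v := sq0 v
    have h4 : HY.sq v = ∑ i, v i ^ 2 := rfl
    rw [← h4]
    exact h1.trans (mul_le_mul_of_nonneg_right h2 h3)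

/-! ## The extension -/

/-- The conditions for the extension. -/
structure TL (A : Cst → ℝ) (q : Cst) : Prop where
  A1 : 1 ≤ A q
  b1 : H313.Mu.b0 1 q.M₀ ≤ 1 / 16
  b2 : H313.Mu.b0 1 q.M₀ * (32 * cSt) ≤ q.σ
  R1 : 4 * cSt ≤ q.σ * q.R
  Rb : 8 * cSt ≤ q.R

theorem lim_b0 : Tendsto (fun t : ℝ => H313.Mu.b0 1 t) atTop (𝓝 0) := by
  have h1 : Tendsto (fun t : ℝ => Real.log t ^ (-(3 / 2) : ℝ)) atTop (𝓝 0) :=
    (tendsto_rpow_neg_atTop (by norm_num : (0 : ℝ) < 3 / 2)).comp Real.tendsto_log_atTop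
  have h2 := h1.const_mul (1 : ℝ)
  rw [mul_zero] at h2
  exact h2

theorem TL.ev {A : Cst → ℝ} (hA : EvC fun q => 1 ≤ A q) : EvC (TL A) := by
  have h1 := EvC.at_M₀ (fun q t => H313.Mu.b0 1 t ≤ 1 / 16) fun q =>
    lim_b0.eventually_le_const (by norm_num)
  have h2 := EvC.at_M₀ (fun q t => 0 < q.σ → H313.Mu.b0 1 t * (32 * cSt) ≤ q.σ) (fun q => by
    by_cases h : 0 < q.σ
    · have h3 := lim_b0.mul_const (32 * cSt)
      rw [zero_mul] at h3
      filter_upwards [h3.eventually_le_const h] with t ht _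
      exact ht
    · exact Eventually.of_forall fun _ h' => absurd h' h)
  have h3 := EvC.at_R (fun q t => 0 < q.σ → 4 * cSt ≤ q.σ * t) (fun q => by
    by_cases h : 0 < q.σ
    · filter_upwards [(tendsto_id.const_mul_atTop h).eventually_ge_atTop (4 * cSt)] with t ht _
      exact ht
    · exact Eventually.of_forall fun _ h' => absurd h' h)
  have h4 := EvC.at_R (fun q t => 8 * cSt ≤ t) fun q => eventually_ge_atTop _
  refine ((hA.and EvC.pos).and ((h1.and h2).and (h3.and h4))).mono ?_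
  rintro q ⟨⟨a1, -, ⟨-, a2, -⟩, -⟩, ⟨a3, a4⟩, a5, a6⟩
  exact ⟨a1, a3, a4 a2, a5 a2, a6⟩

/-- **The extension of the level.** -/
theorem kb_ex (h : PkOk q d) (T : Th q) {A : Cst → ℝ} (L : TL A q) {s₀ a : ℝ} (ha : 0 < a)
    (haR : a ≤ q.R / 4) (hs : H313.Mu.sw q.Cs q.M₀ + 1 + 2 * a ≤ s₀) :
    ∃ k : ℝ → ℝ, KB q d k s₀ a ∧ (∀ s, -(q.σ / (4 * q.R)) ≤ deriv (deriv k) s) ∧
      ∀ s, 2 * a ≤ |s - s₀| → deriv (deriv k) s = 0 := by
  have hσ := T.σ0
  have hσ1 := T.σ1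
  have hR := T.R0
  have cS := cSt_spec.1
  have hsm : ContDiff ℝ ∞ (d.μc q) := (muc_b h L.Rb 0).1
  have hdd : Differentiable ℝ (d.μc q) := hsm.differentiable (by simp)
  have hb0 : ∀ s, |deriv d.μ s| ≤ H313.Mu.b0 1 q.M₀ := fun s => by
    have h1 := h.ph.isμ.d1 s
    have h2 := h.ph.isμ.d2 s
    rw [abs_le]
    constructor <;> linarith
  have hb1 : ∀ s, |deriv (d.μc q) s| ≤ 1 / 8 := fun s => by
    have h1 := muc_b1 (l₀ := d.l₀ q) h.ph.isμ.sm hR (h.ph.μb s) (hb0 s)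
    rw [← μc_eq] at h1
    have h2 : 2 * cSt / q.R ≤ 1 / 4 := by
      rw [div_le_iff₀ hR]
      have := L.Rb
      linarith
    have := L.b1
    linarith
  have hlo : ∀ s, H313.Mu.sw q.Cs q.M₀ + 1 ≤ s →
      -(q.σ / (4 * q.R)) ≤ deriv (deriv (d.μc q)) s := fun s hs => by
    have h1 := muc_lo2 (l₀ := d.l₀ q) h.ph.isμ.sm hR (h.ph.μb s) (hb0 s)
    rw [← μc_eq] at h1
    have h2 : 0 ≤ deriv (deriv d.μ) s * H606.EP.ct (d.l₀ q) q.R s :=
      mul_nonneg (h.ph.isμ.cv s hs) (ct_01 _ _ _).1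
    have h3 : 2 * (H313.Mu.b0 1 q.M₀ * (2 * cSt / q.R)) ≤ q.σ / (8 * q.R) := by
      have h4 := L.b2
      rw [le_div_iff₀ (by positivity)]
      have e1 : 2 * (H313.Mu.b0 1 q.M₀ * (2 * cSt / q.R)) * (8 * q.R) =
          H313.Mu.b0 1 q.M₀ * (32 * cSt) := by field_simp; ring
      rw [e1]
      exact h4
    have h4 : 1 / 8 * (4 * cSt / q.R ^ 2) ≤ q.σ / (8 * q.R) := by
      have h5 := L.R1
      rw [le_div_iff₀ (by positivity)]
      have e1 : 1 / 8 * (4 * cSt / q.R ^ 2) * (8 * q.R) = 4 * cSt / q.R := by field_simp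
      rw [e1, div_le_iff₀ hR]
      exact h5
    have e2 : q.σ / (4 * q.R) = q.σ / (8 * q.R) + q.σ / (8 * q.R) := by field_simp; ring
    rw [e2]
    linarith
  have hd1 : deriv (fun s => s + d.μc q s) = fun s => 1 + deriv (d.μc q) s := by
    funext t
    exact ((hasDerivAt_id t).add (hdd t).hasDerivAt).deriv
  have hd2 : deriv (deriv fun s => s + d.μc q s) = deriv (deriv (d.μc q)) := by
    rw [hd1]
    funext t
    exact deriv_const_add 1
  have hκ : q.σ / (4 * q.R) * a ≤ 1 / 16 := by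
    calc q.σ / (4 * q.R) * a ≤ q.σ / (4 * q.R) * (q.R / 4) :=
          mul_le_mul_of_nonneg_left haR (by positivity)
      _ = q.σ / 16 := by field_simp; ring
      _ ≤ 1 / 16 := by linarith
  obtain ⟨k, c1, c2, c3, c4, c5⟩ := ext1 (h := fun s => s + d.μc q s) (s₀ := s₀) (a := a)
    (κ := q.σ / (4 * q.R)) (contDiff_id.add hsm) ha (by positivity)
    (fun s _ => by
      rw [hd1]
      have := hb1 s
      simpa using this)
    (fun s hs' => by
      rw [hd2]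
      refine hlo s ?_
      have := (abs_le.1 hs').1
      linarith) hκ
  exact ⟨k, ⟨c1, c2, c3⟩, c4, c5⟩

end Vale.Agent.P088.R2.H696.B1
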