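import Vale.Agent.P088.R2.H238.C.Loc
import Vale.Agent.P088.R2.H932.EP.Pk2
import Vale.Agent.P088.R2.H509.EP.Side

/-!
# P088, zone B1: the region and its numbers

`OB q d`: `x`, `y`, `p` in the explicit region, `r < 1`, `u < utb`, `N^(13/5) < 2 E`,
`m < 3 Λ m₁(u)`. It is open and contains the support of the cut-off of `zB`.
-/

open Set Filter
open scoped ContDiff Topology

noncomputable section

namespace Vale.Agent.P088.R2.H696.B1

open Vale.Agent.P088.LR Vale.Agent.P088.HY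
open Vale.Agent.P088.R2.H31.EP
open Vale.Agent.P088.R2.H238.C
open Vale.Agent.P088.R2.H475
open Vale.Agent.P088.R2.H932.EP (NrC evNr m1x_pos m1x_le m1x_smooth)
open Vale.Agent.P088.R2.H464.Cu (mid dif rq)
open Vale.Agent.P088.R2.H867.EP (Near Zo Cut)

variable {n : ℕ} {q : Cst} {d : Pk n} {z : VV n}

/-- **The region of zone B1.** -/
def OB (q : Cst) (d : Pk n) : Set (VV n) :=
  {z | z ∈ Gz q d ∧ d.u q z < d.utb q ∧ d.N q z ^ (13 / 5 : ℝ) < 2 * d.E q z ∧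
    d.m q z < 3 * q.Λ * d.m₁ q (d.u q z)}

/-- The conditions on the constants (`e` is the smallness, a function of the constants before
`M₀`). -/
structure TB (n : ℕ) (e : Cst → ℝ) (q : Cst) : Prop where
  th : Th q
  te : Te n q
  nr : NrC n q
  e0 : 0 < e q
  e1 : e q ≤ 1
  CB1 : 1 ≤ q.CB
  Λ1 : 1 ≤ q.Λ
  M3 : 2000 * q.Λ ^ 3 ≤ e q ^ 2 * q.M₀ ^ (1 / 2 : ℝ)

theorem TB.ev (n : ℕ) {e : Cst → ℝ} (he : NB_M₀ e) (h0 : EvC fun q => 0 < e q ∧ e q ≤ 1) :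
    EvC (TB n e) := by
  have h1 := EvC.at_M₀ (fun q t => 0 < e q → 2000 * q.Λ ^ 3 ≤ e q ^ 2 * t ^ (1 / 2 : ℝ))
    (fun q => by
      by_cases h : 0 < e q
      · have h2 : Tendsto (fun t : ℝ => e q ^ 2 * t ^ (1 / 2 : ℝ)) atTop atTop :=
          (tendsto_rpow_atTop (by norm_num : (0 : ℝ) < 1 / 2)).const_mul_atTop (by positivity)
        filter_upwards [h2.eventually_ge_atTop (2000 * q.Λ ^ 3)] with t ht _
        exact ht
      · exact Eventually.of_forall fun _ h' => absurd h' h)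
  refine (((EvC.loc n).and (evNr n)).and ((EvC.pos.and h0).and h1)).mono ?_
  rintro q ⟨⟨⟨a1, a2⟩, a3⟩, ⟨⟨⟨-, -, -, -, -, -, -, -, b1, b2⟩, -⟩, b3, b4⟩, b5⟩
  have e1 : e q.b_M₀ = e q := he q
  have e2 : q.b_M₀.Λ = q.Λ := rfl
  rw [e1, e2] at b5
  exact ⟨a1, a2, a3, b3, b4, b2, Real.one_le_exp (by positivity), b5 b3⟩

namespace TB

variable {e : Cst → ℝ}

theorem c0 (T : TB n e q) : 0 < q.σ / (q.CB * q.R) := by
  have := T.th.σ0
  have := T.th.R0
  have := T.CB1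
  positivity

theorem m1_pos (T : TB n e q) (u : ℝ) : 0 < d.m₁ q u := m1x_pos T.c0.le (d.ξ_is q) u

theorem m1_le (T : TB n e q) (u : ℝ) : d.m₁ q u ≤ Real.exp (26 / 100 * u) :=
  m1x_le T.c0.le (d.ξ_is q) u

theorem m1_sm (T : TB n e q) : ContDiff ℝ ∞ (d.m₁ q) := m1x_smooth T.c0.le (d.ξ_is q)

theorem u_sm (T : TB n e q) (h : PkOk q d) : ContDiff ℝ ∞ (d.u q) := (T.nr.sm d h).u

/-- `M₀ ≥ 4·10⁶`. -/
theorem M4 (T : TB n e q) : 4000000 ≤ q.M₀ := by
  have h1 := T.M3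
  have h2 : 1 ≤ q.Λ ^ 3 := one_le_pow₀ T.Λ1
  have h3 : e q ^ 2 ≤ 1 := pow_le_one₀ T.e0.le T.e1
  have hM := T.th.M1
  have h4 : 0 ≤ q.M₀ ^ (1 / 2 : ℝ) := by positivity
  have h5 : 2000 ≤ q.M₀ ^ (1 / 2 : ℝ) := by nlinarith
  have h6 : (2000 : ℝ) ^ 2 ≤ (q.M₀ ^ (1 / 2 : ℝ)) ^ 2 := pow_le_pow_left₀ (by norm_num) h5 2
  have h7 : (q.M₀ ^ (1 / 2 : ℝ)) ^ 2 = q.M₀ := by
    rw [← Real.rpow_natCast, ← Real.rpow_mul (by linarith)]
    norm_num
  rw [h7] at h6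
  linarith

theorem logM (T : TB n e q) : 15 ≤ Real.log q.M₀ := by
  have h1 : Real.exp 15 ≤ 4000000 := by
    have h2 : Real.exp 1 < 2.7182818286 := Real.exp_one_lt_d9
    have h3 : Real.exp 15 = Real.exp 1 ^ 15 := by
      rw [← Real.exp_nat_mul]; norm_num
    rw [h3]
    calc Real.exp 1 ^ 15 ≤ 2.7182818286 ^ 15 := by gcongr
      _ ≤ 4000000 := by norm_num
  have h2 := (Real.exp_pos 15).trans_le (h1.trans T.M4)
  rw [Real.le_log_iff_exp_le h2]
  exact h1.trans T.M4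

end TB

theorem isOpen_OB {e : Cst → ℝ} (h : PkOk q d) (T : TB n e q) : IsOpen (OB q d) := by
  have hu := (T.u_sm h).continuous
  have hN : Continuous (d.N q) := (dPhi_sm h).continuous.comp hu
  have hE : Continuous (d.E q) := Real.continuous_exp.comp hu
  have hm : Continuous (d.m q) := hE.mul (r2_sm h T.th T.te).continuous
  have hm1 : Continuous fun z : VV n => d.m₁ q (d.u q z) := T.m1_sm.continuous.comp hu
  refine (isOpen_Gz h T.th T.te).inter ((isOpen_lt hu continuous_const).inter ((isOpen_lt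
    (hN.rpow_const fun _ => Or.inr (by norm_num)) (continuous_const.mul hE)).inter
    (isOpen_lt hm (continuous_const.mul hm1))))

/-! ## The numbers -/

section num

variable {e : Cst → ℝ}

/-- The numbers of zone B1. -/
structure NuB (e : Cst → ℝ) (q : Cst) (d : Pk n) (z : VV n) : Prop where
  /-- the level -/
  u0 : 13 / 5 * Real.log q.M₀ - 1 ≤ d.u q z
  ut : d.u q z ≤ 13 / 10 * d.uth q
  ta : d.u q z ≤ d.uta q
  /-- the slope -/
  N1 : q.M₀ ≤ d.N q z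
  Ne : d.N q z ≤ 2 * Real.exp (5 / 13 * d.u q z)
  /-- the core -/
  me : d.m q z ≤ 3 * q.Λ * Real.exp (26 / 100 * d.u q z)
  m3 : (1 + 2 * d.m q z) ^ 3 ≤ e q ^ 2 / 2 * d.E q z
  m2 : (d.N q z + (1 + 2 * d.m q z)) ^ 2 ≤ e q / 2 * d.E q z
  /-- the distance -/
  dd : HY.sq (z.1 - z.2) ≤ 4 * q.Λ * Real.exp (-(74 / 100 * d.u q z))
  ds : HY.sq (z.1 - z.2) ≤ 1 / 10000

theorem u_ge (h : PkOk q d) (T : TB n e q) {u : ℝ}
    (h1 : deriv d.Φ u ^ (13 / 5 : ℝ) ≤ 2 * Real.exp u) :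
    13 / 5 * Real.log q.M₀ - 1 ≤ u := by
  have hM := T.th.M1
  have hN := N_ge h u
  have hNp := N_pos h T.th u
  have h2 : Real.log (deriv d.Φ u ^ (13 / 5 : ℝ)) ≤ Real.log (2 * Real.exp u) :=
    Real.log_le_log (Real.rpow_pos_of_pos hNp _) h1
  rw [Real.log_rpow hNp, Real.log_mul (by norm_num) (Real.exp_pos u).ne', Real.log_exp] at h2
  have h3 : Real.log q.M₀ ≤ Real.log (deriv d.Φ u) := Real.log_le_log (by linarith) hN
  have h4 : Real.log 2 ≤ 1 := by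
    have := Real.log_two_lt_d9
    linarith
  linarith

theorem u_up (h : PkOk q d) (T : TB n e q) {u : ℝ}
    (h1 : deriv d.Φ u ^ (13 / 5 : ℝ) ≤ 2 * Real.exp u) (h2 : u ≤ d.utb q) :
    u ≤ 13 / 10 * d.uth q ∧ u ≤ d.uta q := by
  have hth := uth_ge h T.th
  have hta := uth_uta h T.th
  have hR := T.th.R1
  have hM := T.th.M1
  have hl2 := Real.log_two_lt_d9
  have hu0 := u_ge h T h1
  have hlM := T.logM
  rcases le_total u (d.uth q) with h3 | h3
  · exact ⟨by linarith, by linarith⟩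
  have hNp := N_pos h T.th u
  have h4 : 13 / 5 * Real.log (deriv d.Φ u) ≤ Real.log 2 + u := by
    have h5 : Real.log (deriv d.Φ u ^ (13 / 5 : ℝ)) ≤ Real.log (2 * Real.exp u) :=
      Real.log_le_log (Real.rpow_pos_of_pos hNp _) h1
    rwa [Real.log_rpow hNp, Real.log_mul (by norm_num) (Real.exp_pos u).ne', Real.log_exp] at h5
  have h6 : u ≤ d.uta q := by
    by_contra hc
    have h7 := T.nr.slope h (not_le.1 hc).le h2
    linarith
  have h8 := h.top.y1 u h3 h6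
  have h9 : 2 * (u - d.uth q) ≤ Real.log (deriv d.Φ u) := by
    rw [h8, Real.log_mul (N_pos h T.th _).ne' (Real.exp_pos _).ne', Real.log_exp]
    have : 0 ≤ Real.log (deriv d.Φ (d.uth q)) := Real.log_nonneg (hM.trans (N_ge h _))
    linarith
  exact ⟨by linarith, h6⟩

/-! ### The numbers, without the package -/

section scal

variable {Λ M u m N ε : ℝ}

theorem s_core (hΛ : 1 ≤ Λ) (hu : 0 ≤ u) (hm : m ≤ 3 * Λ * Real.exp (26 / 100 * u)) :
    1 + 2 * m ≤ 7 * Λ * Real.exp (26 / 100 * u) := by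
  have hx26 : 1 ≤ Real.exp (26 / 100 * u) := Real.one_le_exp (by linarith)
  nlinarith

theorem s_m3 (hΛ : 1 ≤ Λ) (hε : 0 < ε) (hM : 15 ≤ M) (hu : 13 / 5 * M - 1 ≤ u)
    (hm0 : 0 ≤ m) (hm : m ≤ 3 * Λ * Real.exp (26 / 100 * u))
    (hT : 2000 * Λ ^ 3 ≤ ε ^ 2 * Real.exp (1 / 2 * M)) :
    (1 + 2 * m) ^ 3 ≤ ε ^ 2 / 2 * Real.exp u := by
  have h8 := pow_le_pow_left₀ (by linarith) (s_core hΛ (by linarith) hm) 3
  have h9 : (7 * Λ * Real.exp (26 / 100 * u)) ^ 3 = 343 * Λ ^ 3 * Real.exp (78 / 100 * u) := by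
    have e1 : Real.exp (26 / 100 * u) ^ 3 = Real.exp (78 / 100 * u) := by
      rw [← Real.exp_nat_mul]; congr 1; push_cast; ring
    rw [mul_pow, mul_pow, e1]
    norm_num
  rw [h9] at h8
  have h10 : Real.exp (1 / 2 * M) ≤ Real.exp (22 / 100 * u) := by
    rw [Real.exp_le_exp]
    linarith
  have h11 : Real.exp u = Real.exp (78 / 100 * u) * Real.exp (22 / 100 * u) := by
    rw [← Real.exp_add]; congr 1; ring
  have h12 : 2000 * Λ ^ 3 ≤ ε ^ 2 * Real.exp (22 / 100 * u) :=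
    hT.trans (mul_le_mul_of_nonneg_left h10 (by positivity))
  have h13 := mul_le_mul_of_nonneg_right h12 (Real.exp_pos (78 / 100 * u)).le
  have h14 : 0 ≤ Λ ^ 3 * Real.exp (78 / 100 * u) := by positivity
  rw [h11]
  linarith

theorem s_m2 (hΛ : 1 ≤ Λ) (hε : 0 < ε) (hε1 : ε ≤ 1) (hM : 15 ≤ M) (hu : 13 / 5 * M - 1 ≤ u)
    (hm0 : 0 ≤ m) (hm : m ≤ 3 * Λ * Real.exp (26 / 100 * u)) (hN0 : 0 ≤ N)
    (hN : N ≤ 2 * Real.exp (5 / 13 * u)) (hT : 2000 * Λ ^ 3 ≤ ε ^ 2 * Real.exp (1 / 2 * M)) :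
    (N + (1 + 2 * m)) ^ 2 ≤ ε / 2 * Real.exp u := by
  have h8 : Real.exp (26 / 100 * u) ≤ Real.exp (5 / 13 * u) := by
    rw [Real.exp_le_exp]
    linarith
  have h9 : N + (1 + 2 * m) ≤ 9 * Λ * Real.exp (5 / 13 * u) := by
    have h10 : 7 * Λ * Real.exp (26 / 100 * u) ≤ 7 * Λ * Real.exp (5 / 13 * u) :=
      mul_le_mul_of_nonneg_left h8 (by positivity)
    have h11 := s_core hΛ (by linarith) hm
    have h12 := mul_le_mul_of_nonneg_right hΛ (Real.exp_pos (5 / 13 * u)).le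
    linarith
  have h10 := pow_le_pow_left₀ (by linarith) h9 2
  have h11 : (9 * Λ * Real.exp (5 / 13 * u)) ^ 2 = 81 * Λ ^ 2 * Real.exp (10 / 13 * u) := by
    have e1 : Real.exp (5 / 13 * u) ^ 2 = Real.exp (10 / 13 * u) := by
      rw [← Real.exp_nat_mul]; congr 1; push_cast; ring
    rw [mul_pow, mul_pow, e1]
    norm_num
  rw [h11] at h10
  have h12 : Real.exp (1 / 2 * M) ≤ Real.exp (3 / 13 * u) := by
    rw [Real.exp_le_exp]
    linarith
  have h13 : Real.exp u = Real.exp (10 / 13 * u) * Real.exp (3 / 13 * u) := by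
    rw [← Real.exp_add]; congr 1; ring
  have h14 : 2000 * Λ ^ 3 ≤ ε ^ 2 * Real.exp (3 / 13 * u) :=
    hT.trans (mul_le_mul_of_nonneg_left h12 (by positivity))
  have h15 : Λ ^ 2 ≤ Λ ^ 3 := pow_le_pow_right₀ hΛ (by norm_num)
  have h16 : ε ^ 2 ≤ ε := by nlinarith
  have h17 : 2000 * Λ ^ 2 ≤ ε * Real.exp (3 / 13 * u) := by
    have := mul_le_mul_of_nonneg_right h16 (Real.exp_pos (3 / 13 * u)).le
    linarith
  have h18 := mul_le_mul_of_nonneg_right h17 (Real.exp_pos (10 / 13 * u)).le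
  have h19 : 0 ≤ Λ ^ 2 * Real.exp (10 / 13 * u) := by positivity
  rw [h13]
  linarith

theorem s_ds (hΛ : 1 ≤ Λ) (hε : 0 < ε) (hε1 : ε ≤ 1) (hM : 15 ≤ M)
    (hM4 : 4000000 ≤ Real.exp M) (hu : 13 / 5 * M - 1 ≤ u)
    (hT : 2000 * Λ ^ 3 ≤ ε ^ 2 * Real.exp (1 / 2 * M)) :
    4 * Λ * Real.exp (-(74 / 100 * u)) ≤ 1 / 10000 := by
  have h8 : Real.exp (-(74 / 100 * u)) ≤ Real.exp (-(3 / 2 * M)) := by
    rw [Real.exp_le_exp]
    linarith
  have h9 : Real.exp (-(3 / 2 * M)) = Real.exp (-(1 / 2 * M)) * (Real.exp M)⁻¹ := by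
    rw [← Real.exp_neg, ← Real.exp_add]; congr 1; ring
  have h10 : Λ * Real.exp (-(1 / 2 * M)) ≤ 1 := by
    have h11 : Λ ≤ Real.exp (1 / 2 * M) := by
      have h12 : Λ ≤ Λ ^ 3 := le_self_pow₀ hΛ (by norm_num)
      have h13 : ε ^ 2 ≤ 1 := pow_le_one₀ hε.le hε1
      have h14 := mul_le_mul_of_nonneg_right h13 (Real.exp_pos (1 / 2 * M)).le
      have h15 : 0 ≤ Λ ^ 3 := by positivity
      linarith
    rw [Real.exp_neg, ← div_eq_mul_inv, div_le_one (Real.exp_pos _)]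
    exact h11
  have h11 : (Real.exp M)⁻¹ ≤ 1 / 40000 := by
    rw [inv_le_comm₀ (Real.exp_pos _) (by norm_num)]
    norm_num
    linarith
  have h12 : 0 ≤ (Real.exp M)⁻¹ := inv_nonneg.2 (Real.exp_pos _).le
  calc 4 * Λ * Real.exp (-(74 / 100 * u)) ≤ 4 * Λ * Real.exp (-(3 / 2 * M)) :=
        mul_le_mul_of_nonneg_left h8 (by positivity)
    _ = 4 * (Λ * Real.exp (-(1 / 2 * M))) * (Real.exp M)⁻¹ := by rw [h9]; ring
    _ ≤ 4 * 1 * (1 / 40000) := by gcongr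
    _ = 1 / 10000 := by norm_num

end scal

theorem N_up (h : PkOk q d) (T : TB n e q) {u : ℝ}
    (h1 : deriv d.Φ u ^ (13 / 5 : ℝ) ≤ 2 * Real.exp u) :
    deriv d.Φ u ≤ 2 * Real.exp (5 / 13 * u) := by
  have hNp := N_pos h T.th u
  have h4 : 13 / 5 * Real.log (deriv d.Φ u) ≤ Real.log 2 + u := by
    have h5 : Real.log (deriv d.Φ u ^ (13 / 5 : ℝ)) ≤ Real.log (2 * Real.exp u) :=
      Real.log_le_log (Real.rpow_pos_of_pos hNp _) h1
    rwa [Real.log_rpow hNp, Real.log_mul (by norm_num) (Real.exp_pos u).ne', Real.log_exp] at h5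
  have h5 : 0 < Real.log 2 := Real.log_pos (by norm_num)
  have h6 : Real.log (deriv d.Φ u) ≤ Real.log (2 * Real.exp (5 / 13 * u)) := by
    rw [Real.log_mul (by norm_num) (Real.exp_pos _).ne', Real.log_exp]
    linarith
  exact (Real.log_le_log_iff hNp (by positivity)).1 h6

theorem m_nn (h : PkOk q d) (T : TB n e q) (z : VV n) : 0 ≤ d.m q z := by
  have h1 := r2_ge h T.th T.te z
  have h2 := sq0 (z.1 - z.2)
  exact mul_nonneg (Real.exp_pos _).le (by linarith)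

theorem d_le (h : PkOk q d) (T : TB n e q)
    (hme : d.m q z ≤ 3 * q.Λ * Real.exp (26 / 100 * d.u q z)) :
    HY.sq (z.1 - z.2) ≤ 4 * q.Λ * Real.exp (-(74 / 100 * d.u q z)) := by
  have hΛ := T.Λ1
  have h8 := r2_ge h T.th T.te z
  have h9 : d.r2 z = d.m q z * Real.exp (-d.u q z) := by
    change d.r2 z = Real.exp (d.u q z) * d.r2 z * Real.exp (-d.u q z)
    rw [mul_comm (Real.exp (d.u q z)), mul_assoc, ← Real.exp_add, add_neg_cancel, Real.exp_zero,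
      mul_one]
  have h10 : d.m q z * Real.exp (-d.u q z) ≤
      3 * q.Λ * Real.exp (26 / 100 * d.u q z) * Real.exp (-d.u q z) :=
    mul_le_mul_of_nonneg_right hme (Real.exp_pos _).le
  have h11 : 3 * q.Λ * Real.exp (26 / 100 * d.u q z) * Real.exp (-d.u q z) =
      3 * q.Λ * Real.exp (-(74 / 100 * d.u q z)) := by
    rw [mul_assoc, ← Real.exp_add]; congr 2; ring
  have h12 : 0 ≤ q.Λ * Real.exp (-(74 / 100 * d.u q z)) := by positivity
  linarith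

theorem TB.M3' (T : TB n e q) : 2000 * q.Λ ^ 3 ≤ e q ^ 2 * Real.exp (1 / 2 * Real.log q.M₀) := by
  have hM := T.th.M1
  have hMh : q.M₀ ^ (1 / 2 : ℝ) = Real.exp (1 / 2 * Real.log q.M₀) := by
    rw [Real.rpow_def_of_pos (by linarith)]; congr 1; ring
  rw [← hMh]
  exact T.M3

theorem nuB (h : PkOk q d) (T : TB n e q) (hz : z ∈ OB q d) : NuB e q d z := by
  obtain ⟨hG, hb, hN, hm⟩ := hz
  have hM := T.th.M1
  have hlM := T.logM
  have hM4 : 4000000 ≤ Real.exp (Real.log q.M₀) := by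
    rw [Real.exp_log (by linarith)]; exact T.M4
  have hN' : deriv d.Φ (d.u q z) ^ (13 / 5 : ℝ) ≤ 2 * Real.exp (d.u q z) := hN.le
  have hu0 := u_ge h T hN'
  have hup := u_up h T hN' hb.le
  have hNe := N_up h T hN'
  have hm0 := m_nn h T z
  have hme : d.m q z ≤ 3 * q.Λ * Real.exp (26 / 100 * d.u q z) :=
    hm.le.trans (mul_le_mul_of_nonneg_left (T.m1_le _) (by have := T.Λ1; positivity))
  have hdd := d_le h T hme
  exact
    { u0 := hu0
      ut := hup.1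
      ta := hup.2
      N1 := N_ge h _
      Ne := hNe
      me := hme
      m3 := s_m3 T.Λ1 T.e0 hlM hu0 hm0 hme T.M3'
      m2 := s_m2 T.Λ1 T.e0 T.e1 hlM hu0 hm0 hme (N_pos h T.th _).le hNe T.M3'
      dd := hdd
      ds := hdd.trans (s_ds T.Λ1 T.e0 T.e1 hlM hM4 hu0 T.M3') }

end num

end Vale.Agent.P088.R2.H696.B1
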